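import Vale.Agent.Lib.P052.helper21.Final

/-!
# P052: the partition conjecture of Borsuk fails in dimension 63

There is a finite (hence bounded) set `Y` of positive diameter in the Euclidean space of
dimension 63 that is not a union of 64 subsets of smaller diameter.

The set has 321 points.  320 of them are the points of the 416-point two-distance set of
Bondarenko (from the strongly regular graph of the group G2(4)) that lie in a linear subspace of
codimension 2 of its 65-dimensional span; the last one is a multiple of the orthogonal projection
of a further point of that set onto this subspace, scaled so that its distance to every one of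
the 320 points is at most the diameter, with equality exactly for the non-neighbours.  Every part
of smaller diameter is then a clique of a graph without 6-cliques, so 64 parts cover at most
320 points.

The coordinates come from a 416 x 416 integer matrix `N` with `Nᵀ N = 96 N` and trace `96 * 63`,
which is therefore 96 times an orthogonal projection of rank 63; the identity, the entries and the
absence of 6-cliques are checked by the kernel on packed data (`Vale.Agent.Lib.P052.H21`).
-/

namespace Vale.Agent.Results.P052.A_BorsukFails63

theorem result :
    ∃ Y : Set (EuclideanSpace ℝ (Fin 63)), Y.Finite ∧ Bornology.IsBounded Y ∧ 0 < Metric.diam Y ∧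
      ¬ ∃ P : Fin 64 → Set (EuclideanSpace ℝ (Fin 63)),
        Y = ⋃ c, P c ∧ ∀ c, Metric.diam (P c) < Metric.diam Y := by
  obtain ⟨Y, hfin, hpos, hno⟩ := Vale.Agent.Lib.P052.H21.borsuk63
  exact ⟨Y, hfin, hfin.isBounded, hpos, hno⟩

end Vale.Agent.Results.P052.A_BorsukFails63
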