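import Vale.Agent.Lib.P052.helper21.Final

/-!
# P052: the conjecture of Borsuk in dimension 63 is false

The statement that every bounded set of positive diameter in the Euclidean space of dimension 63
is a union of 63 + 1 subsets of smaller diameter does not hold.  The counterexample is the
321-point set of `Vale.Agent.Lib.P052.H21.borsuk63`.
-/

namespace Vale.Agent.Results.P052.B_NotBorsuk63

theorem result :
    ¬ ∀ Y : Set (EuclideanSpace ℝ (Fin 63)), Bornology.IsBounded Y → 0 < Metric.diam Y →
      ∃ P : Fin (63 + 1) → Set (EuclideanSpace ℝ (Fin 63)),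
        Y = ⋃ c, P c ∧ ∀ c, Metric.diam (P c) < Metric.diam Y := by
  intro h
  obtain ⟨Y, hfin, hpos, hno⟩ := Vale.Agent.Lib.P052.H21.borsuk63
  exact hno (h Y hfin.isBounded hpos)

end Vale.Agent.Results.P052.B_NotBorsuk63
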