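import Vale.Agent.Lib.P052.lead.Final
import Vale.Agent.Lib.P052.lead.SqFine

/-!
# P052: Borsuk's conjecture fails in dimension 63

There is a finite set of points of 63-dimensional Euclidean space, of positive diameter, that
is not the union of 64 subsets of strictly smaller diameter.

The set has 321 points: 320 of the 416 points of the two-distance set of the `G_2(4)` graph
(Bondarenko) that lie in a 63-dimensional subspace, together with one rescaled projection of a
further point.  Every subset of smaller diameter has at most 5 points, and `5 * 64 < 321`.
-/

theorem Vale.Agent.Results.P052.BorsukFailsDim63.result :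
    ∃ Z : Set (EuclideanSpace ℝ (Fin 63)), Z.Finite ∧ 0 < Metric.diam Z ∧
      ¬ ∃ P : Fin 64 → Set (EuclideanSpace ℝ (Fin 63)),
          (⋃ i, P i) = Z ∧ ∀ i, Metric.diam (P i) < Metric.diam Z :=
  Vale.Agent.Lib.P052.borsuk63_of_sq Vale.Agent.Lib.P052.Fine.Nmat_sq
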